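import Mathlib

open scoped NNReal ENNReal Nat
open IsLocalRing

namespace Vale.Agent.P282.Full

section field

variable {K : Type} [Field K] [Algebra ℂ K]

/-- `ω` is a nonzero pluricanonical form `g • (d b₁ ∧ ⋯ ∧ d bₙ)^{⊗ r}` of weight `r` on the function
field `K`, given by its values on `n`-tuples of vector fields. -/
def IsPluriForm (n r : ℕ) (ω : (Fin n → Derivation ℂ K K) → K) : Prop :=
  (∃ D, ω D ≠ 0) ∧ ∃ (g : K) (b : Fin n → K), ∀ D,
    ω D = g * Matrix.det (Matrix.of fun i j => D i (b j)) ^ r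

/-- The log discrepancy `a` of the real valuation `ord = - log v`, with respect to the
pluricanonical form `ω` of weight `r`: the supremum of `ord h / r`, where
`ω = h • (dlog b₁ ∧ ⋯ ∧ dlog bₙ)^{⊗ r}` with `b₁, …, bₙ` in `Kˣ`. -/
def IsLogDiscrepancy (n r : ℕ) (ω : (Fin n → Derivation ℂ K K) → K) (v : Valuation K ℝ≥0)
    (a : ℝ) : Prop :=
  IsLUB {t : ℝ | ∃ (b : Fin n → K) (h : K), (∀ i, b i ≠ 0) ∧
    (∀ D : Fin n → Derivation ℂ K K,
      (∏ i, b i) ^ r * ω D = h * Matrix.det (Matrix.of fun i j => D i (b j)) ^ r) ∧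
    t = -Real.log (v h) / r} a

/-- The value group of `ord = - log v` is `ℤ`. -/
def IsNormalized (v : Valuation K ℝ≥0) : Prop :=
  (∃ f : K, (v f : ℝ) = Real.exp (-1)) ∧ ∀ f : K, v f < 1 → (v f : ℝ) ≤ Real.exp (-1)

end field

section germ

variable (R : Type) {K : Type} [CommRing R] [IsDomain R] [IsLocalRing R] [Algebra ℂ R]
  [Field K] [Algebra ℂ K] [Algebra R K]

/-- The center of the real valuation `- log v` on `Spec R` is the prime ideal `P`. -/
def HasCenter (v : Valuation K ℝ≥0) (P : Ideal R) : Prop :=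
  ∀ f : R, v (algebraMap R K f) ≤ 1 ∧ (v (algebraMap R K f) < 1 ↔ f ∈ P)

/-- `R` is the local ring of a klt germ of dimension `n` (a closed point of a normal complex
variety) and `ω` is a local generator of `r K_X`. -/
structure IsKltGerm (n r : ℕ) (ω : (Fin n → Derivation ℂ K K) → K) : Prop where
  essFiniteType : Algebra.EssFiniteType ℂ R
  normal : IsIntegrallyClosed R
  residue : Function.Surjective (algebraMap ℂ (ResidueField R))
  dim : Algebra.trdeg ℂ R = n
  index_pos : 0 < r
  form : IsPluriForm n r ω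
  canonical : ∀ (v : Valuation K ℝ≥0) (P : Ideal R), HasCenter R v P → P.height = 1 →
    IsNormalized v → IsLogDiscrepancy n r ω v 1
  klt : ∀ (v : Valuation K ℝ≥0) (P : Ideal R) (a : ℝ), HasCenter R v P → P ≠ ⊥ →
    IsLogDiscrepancy n r ω v a → 0 < a

/-- The valuation ideal `{f ∈ R : ord f ≥ t}`, `ord = - log v`. -/
def valIdeal (v : Valuation K ℝ≥0) (t : ℝ) : Ideal R :=
  Ideal.span {f | (v (algebraMap R K f) : ℝ) ≤ Real.exp (-t)}

/-- The volume of the real valuation `- log v`. -/
noncomputable def vol (n : ℕ) (v : Valuation K ℝ≥0) : ℝ≥0∞ :=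
  Filter.limsup (fun t : ℕ => (n ! : ℝ≥0∞) * (Module.length R (R ⧸ valIdeal R v t) : ℝ≥0∞) /
    (t : ℝ≥0∞) ^ n) Filter.atTop

/-- The normalized volume: the infimum of `A(v) ^ n * vol(v)` over all the real valuations
centered at the closed point with finite log discrepancy `A(v)`. -/
noncomputable def normalizedVolume (n r : ℕ) (ω : (Fin n → Derivation ℂ K K) → K) : ℝ≥0∞ :=
  ⨅ (v : Valuation K ℝ≥0) (_ : HasCenter R v (maximalIdeal R)) (a : ℝ)
    (_ : IsLogDiscrepancy n r ω v a), ENNReal.ofReal a ^ n * vol R n v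

end germ

end Vale.Agent.P282.Full
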